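import Mathlib

namespace Vale.Agent.Results.P026.PrimitiveStrip

open DirichletCharacter Complex

lemma factorsThrough_inv {N : ℕ} (χ : DirichletCharacter ℂ N) {d : ℕ}
    (h : FactorsThrough χ d) : FactorsThrough χ⁻¹ d := by
  obtain ⟨hd, χ₀, hχ⟩ := h
  exact ⟨hd, χ₀⁻¹, by rw [hχ, map_inv]⟩

lemma conductor_inv {N : ℕ} (χ : DirichletCharacter ℂ N) : conductor χ⁻¹ = conductor χ := by
  have : conductorSet χ⁻¹ = conductorSet χ := by
    ext d
    constructor
    · intro h
      have := factorsThrough_inv χ⁻¹ h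
      rwa [inv_inv] at this
    · intro h
      exact factorsThrough_inv χ h
  unfold DirichletCharacter.conductor
  rw [this]

lemma isPrimitive_inv {N : ℕ} {χ : DirichletCharacter ℂ N} (h : IsPrimitive χ) :
    IsPrimitive χ⁻¹ := by
  unfold IsPrimitive at *
  rw [conductor_inv, h]

lemma gammaFactor_ne_zero {N : ℕ} (χ : DirichletCharacter ℂ N) {s : ℂ} (hs : 0 < s.re) :
    gammaFactor χ s ≠ 0 := by
  rcases χ.even_or_odd with h | h
  · rw [h.gammaFactor_def]; exact Gammaℝ_ne_zero_of_re_pos hs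
  · rw [h.gammaFactor_def]; exact Gammaℝ_ne_zero_of_re_pos (by simp; linarith)

/-- reflection of zeros in the open critical strip -/
lemma zero_reflect {N : ℕ} [NeZero N] {χ : DirichletCharacter ℂ N} (hχ : IsPrimitive χ) {s : ℂ}
    (h0 : 0 < s.re) (h1 : s.re < 1) (hz : LFunction χ s = 0) : LFunction χ⁻¹ (1 - s) = 0 := by
  have hs0 : s ≠ 0 := by intro h; rw [h] at h0; simp at h0
  have hs1 : (1 - s) ≠ 0 := by
    intro h
    have : (1 - s).re = 0 := by rw [h]; simp
    simp at this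
    linarith
  rw [LFunction_eq_completed_div_gammaFactor χ s (Or.inl hs0), div_eq_zero_iff] at hz
  have hΛ : completedLFunction χ s = 0 := hz.resolve_right (gammaFactor_ne_zero χ h0)
  have hfe := (isPrimitive_inv hχ).completedLFunction_one_sub s
  rw [inv_inv, hΛ, mul_zero] at hfe
  rw [LFunction_eq_completed_div_gammaFactor χ⁻¹ (1 - s) (Or.inl hs1), hfe, zero_div]

lemma euler_factor_ne_zero {M : ℕ} (χ : DirichletCharacter ℂ M) {p : ℕ} (hp : p.Prime) {s : ℂ}
    (hs : 0 < s.re) : (1 - χ p * (p:ℂ) ^ (-s)) ≠ 0 := by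
  intro h
  have h1 : χ p * (p:ℂ) ^ (-s) = 1 := by linear_combination -h
  have h2 : ‖χ p * (p:ℂ) ^ (-s)‖ < 1 := by
    rw [norm_mul, Complex.norm_natCast_cpow_of_pos hp.pos]
    have h3 : ‖χ p‖ ≤ 1 := χ.norm_le_one _
    have h4 : (p:ℝ) ^ (-s).re < 1 := by
      apply Real.rpow_lt_one_of_one_lt_of_neg
      · exact_mod_cast hp.one_lt
      · simp; exact hs
    have h5 : 0 ≤ (p:ℝ) ^ (-s).re := by positivity
    calc ‖χ p‖ * (p:ℝ) ^ (-s).re ≤ 1 * (p:ℝ) ^ (-s).re := by gcongr
      _ < 1 := by linarith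
  rw [h1] at h2
  simp at h2

/-- in the half plane `0 < Re s`, `s ≠ 1`, a character and its primitive character have the same zeros -/
lemma zero_iff_primitive {N : ℕ} [NeZero N] (χ : DirichletCharacter ℂ N) {s : ℂ}
    (h0 : 0 < s.re) (h1 : s ≠ 1) :
    haveI : NeZero χ.conductor := ⟨χ.conductor_ne_zero⟩
    LFunction χ s = 0 ↔ LFunction χ.primitiveCharacter s = 0 := by
  haveI : NeZero χ.conductor := ⟨χ.conductor_ne_zero⟩
  have h := LFunction_changeLevel χ.conductor_dvd_level χ.primitiveCharacter (s := s) (Or.inr h1)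
  rw [changeLevel_primitiveCharacter] at h
  rw [h, mul_eq_zero]
  constructor
  · intro hh
    rcases hh with hh | hh
    · exact hh
    · exfalso
      rw [Finset.prod_eq_zero_iff] at hh
      obtain ⟨p, hp, hp0⟩ := hh
      exact euler_factor_ne_zero _ (Nat.prime_of_mem_primeFactors hp) h0 hp0
  · intro hh; exact Or.inl hh

theorem result (σ₀ : ℝ) :
    (∀ (N : ℕ) [NeZero N] (χ : DirichletCharacter ℂ N) (s : ℂ),
        0 < s.re → s.re < 1 → σ₀ < s.re → LFunction χ s ≠ 0) ↔
    (∀ (N : ℕ) [NeZero N] (χ : DirichletCharacter ℂ N), IsPrimitive χ →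
        ∀ s : ℂ, 0 < s.re → s.re < 1 → LFunction χ s = 0 → 1 - σ₀ ≤ s.re ∧ s.re ≤ σ₀) := by
  constructor
  · intro H N _ χ hχ s h0 h1 hz
    constructor
    · by_contra hcon
      rw [not_le] at hcon
      have hz' := zero_reflect hχ h0 h1 hz
      exact H N χ⁻¹ (1 - s) (by simp; linarith) (by simp; linarith) (by simp; linarith) hz'
    · by_contra hcon
      rw [not_le] at hcon
      exact H N χ s h0 h1 hcon hz
  · intro H N _ χ s h0 h1 hσ hz
    haveI : NeZero χ.conductor := ⟨χ.conductor_ne_zero⟩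
    have hs1 : s ≠ 1 := by intro h; rw [h] at h1; simp at h1
    have hz' := (zero_iff_primitive χ h0 hs1).mp hz
    have := (H χ.conductor χ.primitiveCharacter χ.primitiveCharacter_isPrimitive s h0 h1 hz').2
    linarith

end Vale.Agent.Results.P026.PrimitiveStrip
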